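import Vale.Agent.P092.H306.G.Pur
import Vale.Agent.P092.H828.P.Q0d

/-!
P092, TEAM P, Track 2 (helper604): end of T3 in the letters of CL/Defs: an equivariant family of
calculi `F p` (source points, values: maximal subspaces of the target) whose products vanish on
opposite supports does not exist.
-/

set_option linter.all false

open scoped InnerProductSpace ENNReal
open Filter Topology ContinuousLinearMap MeasureTheory TopologicalSpace

namespace Vale.Agent.P092.H604.T3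

open Vale.Agent.P092.SD (Ms UC)
open Vale.Agent.P092.RC (Cm PicX)
open Vale.Agent.P092.CL (Lt Geo PB)
open Vale.Agent.P092.H43.PPur (Fam Prx)
open Vale.Agent.P092.H306.G (PurIn prx2)

variable {S P M V₁ V₂ : Type} [Group S] [MeasurableSpace V₁] [MeasurableSpace V₂]
  [TopologicalSpace S] [MulAction S P] [TopologicalSpace P] [CompactSpace P]
  [ContinuousConstSMul S P] [MulAction S M] [TopologicalSpace M] [CompactSpace M]
  [ContinuousConstSMul S M] [NormedAddCommGroup V₁] [NormedAddCommGroup V₂]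
  {L : Lt S P M V₁ V₂} {E Γ K : Type} [Group E] [TopologicalSpace E] [Group Γ]
  [NormedAddCommGroup K] [InnerProductSpace ℂ K] [CompleteSpace K] {𝒰 : Ultrafilter ℕ}
  {ι : S →* E} {π : E →* (K →L[ℂ] K)} {lam : Γ →* (K →L[ℂ] K)} {W : Set (K →L[ℂ] K)} {Ω : K}
  {m : Set Γ → (K →L[ℂ] K)} {q : Γ → S}

/-- **end of T3** (letters of CL/Defs). -/
theorem no_family (hG : Geo L) (hI : PurIn L) (hb : PB L 𝒰 ι π lam W Ω m q) {Z : Type}
    [MulAction S Z] [Nonempty Z]
    (F : Z → (C(M, ℂ) →⋆ₐ[ℂ] (K →L[ℂ] K))) (cm : ∀ p f, Cm W (F p f))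
    (cov : ∀ γ p f, lam γ * F p f * lam γ⁻¹ = F p (CL.act (q γ) f))
    (pcov : ∀ g p f, π (ι g) * F p f * π (ι g)⁻¹ = F (g • p) f)
    (two : ∀ p p' (u v : C(M, ℂ)), (∀ l ∈ tsupport u, ∀ l' ∈ tsupport v, L.opp2 l l') →
      F p u * F p' v = 0) : False := by
  haveI := hG.t2M
  have hF : Fam π lam W q 1 fun p => ((F p : C(M, ℂ) →⋆ₐ[ℂ] (K →L[ℂ] K)) : C(M, ℂ) →ₗ[ℂ] (K →L[ℂ] K)) :=
    { ul := fun p => SP.UL.of_hom (F p)
      cm := fun p f => cm p f
      cov := fun γ p f f' hff => by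
        have h1 := cov γ p f
        have h2 : CL.act (q γ) f = f' := by
          ext y
          change f ((q γ)⁻¹ • y) = f' y
          rw [← hff, smul_inv_smul]
        rw [h2] at h1
        exact h1
      pst := fun e p => by
        obtain ⟨g, rfl⟩ := hb.adm.sur e
        exact ⟨g • p, fun f => pcov g p f⟩ }
  obtain ⟨z, hz, -⟩ := hI.m2 L.m0 L.m0
  obtain ⟨U₁, U₂, h1, h2, hx1, hy2, h3⟩ := isOpen_prod_iff.1 hI.o2 z L.m0 hz
  obtain ⟨Ω', hI'⟩ := SP.X.toI hb.pic
  have h4 := SP.X.excl (U := U₁) (U' := U₂) hI' hF hF (prx2 hI hb.prox2) h1 ⟨z, hx1⟩ h2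
    ⟨L.m0, hy2⟩ fun p p' f g hf hg => two p p' f g fun s hs t ht =>
      h3 (Set.mk_mem_prod (hf hs) (hg ht))
  rcases h4 with h | h
  · exact one_ne_zero h
  · exact one_ne_zero h

end Vale.Agent.P092.H604.T3
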