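import Vale.Agent.P092.H604.T3
import Vale.Agent.P092.H631.P3Geo

/-!
P092, TEAM P, Track 2, T3 in the letters `SGr σ J j` (helper766 #9530): `X₁ = SGr σ J 1`,
`X₂ = SGr σ J j`, `X₃ = SGr σ J (j+1)` = maximal, relation `Inc`.
-/

set_option linter.all false

namespace Vale.Agent.P092.H604.T3

open Set Topology Module
open Vale.Agent.P092.H370.Po
open Vale.Agent.P092.H714.Cl
open Vale.Agent.P092.H618 (Nin)

section geo

variable {n : Type} [Fintype n] [DecidableEq n] {k : Type} [Field k]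
  {σ : k →+* k} {ε : k} {J : Matrix n n k} {i j : ℕ}

/-- a space orthogonal to a maximal one lies in it -/
theorem inc_of_col_max (hF : Frm σ ε J) {r : ℕ} (hW : WI σ J r) {x : SGr σ J i} {L : SGr σ J r}
    (h : Col L x) : Inc x L := by
  have hs : Sing σ J (L.S ⊔ x.S) :=
    ort_sup_left.2 ⟨ort_sup_right.2 ⟨L.sing, h⟩, ort_sup_right.2 ⟨Ort.symm hF h, x.sing⟩⟩
  have h1 : finrank k ↥(L.S ⊔ x.S) ≤ r := hW.2 _ hs
  have h2 : L.S = L.S ⊔ x.S := Submodule.eq_of_le_of_finrank_le le_sup_left (by rw [L.dim]; exact h1)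
  change x.S ≤ L.S
  rw [h2]
  exact le_sup_right

/-- at most one subspace of codimension one of a maximal space `L` is orthogonal to a point
off `L` -/
theorem foot (hF : Frm σ ε J) (hW : WI σ J (j + 1)) {x : SGr σ J 1} {L : SGr σ J (j + 1)}
    {A A' : SGr σ J j} (hx : ¬ Inc x L) (h1 : Inc A L) (h2 : Inc A' L) (h3 : Col A x)
    (h4 : Col A' x) : A = A' := by
  by_contra hne
  exact hx (inc_of_col_max hF hW (H702.PG.ort_join hne h1 h2 h3 h4))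

end geo

section flip

variable {n : Type} [Fintype n] [DecidableEq n] {k : Type} [NontriviallyNormedField k]
  [ProperSpace k] [IsUltrametricDist k] {σ : k →+* k} [Fact (Continuous σ)] {ε : k}
  {J : Matrix n n k} {j : ℕ} {K : Type*} [NormedAddCommGroup K] [InnerProductSpace ℂ K]
  [CompleteSpace K]

/-- **T3, first part, letters of helper766 #9530**: `Ew` = calculus of a maximal source subspace
`w` (values: points), `Fp` = calculus of a source point `p` (values: maximal subspaces), `Gl`,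
`Gl2` = calculi of the lines `pq`, `pq2` (values: subspaces of dimension `j = r - 1`), `Fq`, `Fq2` =
calculi of the points `q`, `q2` of `w`. -/
theorem t3_nin (hF : Frm σ ε J) (hW : WI σ J (j + 1))
    {Ew : C(SGr σ J 1, ℂ) →⋆ₐ[ℂ] (K →L[ℂ] K)} {Gl Gl2 : C(SGr σ J j, ℂ) →⋆ₐ[ℂ] (K →L[ℂ] K)}
    {Fp Fq Fq2 : C(SGr σ J (j + 1), ℂ) →⋆ₐ[ℂ] (K →L[ℂ] K)}
    (c1 : ∀ g u, Commute (Gl g) (Fp u)) (i1 : ∀ g u, Nin Inc g u → Gl g * Fp u = 0)
    (c2 : ∀ g u, Commute (Gl2 g) (Fp u)) (i2 : ∀ g u, Nin Inc g u → Gl2 g * Fp u = 0)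
    (i3 : ∀ g u, Nin Inc g u → Gl g * Fq u = 0) (i4 : ∀ g u, Nin Inc g u → Gl2 g * Fq2 u = 0)
    (c5 : ∀ a u, Commute (Ew a) (Fq u)) (i5 : ∀ a u, Nin Inc a u → Ew a * Fq u = 0)
    (c6 : ∀ a u, Commute (Ew a) (Fq2 u)) (i6 : ∀ a u, Nin Inc a u → Ew a * Fq2 u = 0)
    (agr : ∀ ξ, (∀ f, Gl f ξ = Gl2 f ξ) → ξ = 0) (u : C(SGr σ J (j + 1), ℂ))
    (a : C(SGr σ J 1, ℂ)) (h : Nin (fun L x => Inc x L) u a) : Fp u * Ew a = 0 := by
  refine t3_inc (In := Inc) (Sb := Inc) inc_closed inc_closed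
    (fun x L A A' hx h1 h2 ⟨M, hM1, hM2⟩ ⟨M', hM1', hM2'⟩ => foot hF hW hx h1 h2 ?_ ?_)
    (G := Gl) (G' := Gl2) (Q := Fq) (Q' := Fq2) (E := Ew) (F := Fp)
    ⟨c1, fun g u h => i1 g u h, fun g u h => i3 g u h, fun a u h => ?_⟩
    ⟨c2, fun g u h => i2 g u h, fun g u h => i4 g u h, fun a u h => ?_⟩ agr u a ?_
  · exact Ort.mono M.sing hM2 hM1
  · exact Ort.mono M'.sing hM2' hM1'
  · rw [← (c5 a u).eq]
    exact i5 a u h
  · rw [← (c6 a u).eq]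
    exact i6 a u h
  · exact fun x hx L hL => h L hL x hx

/-- **T3, second part.** -/
theorem t3_two {Ew : C(SGr σ J 1, ℂ) →⋆ₐ[ℂ] (K →L[ℂ] K)}
    {Fp Fp' : C(SGr σ J (j + 1), ℂ) →⋆ₐ[ℂ] (K →L[ℂ] K)}
    (h₁ : ∀ u a, Nin (fun (L : SGr σ J (j + 1)) (x : SGr σ J 1) => Inc x L) u a → Fp u * Ew a = 0)
    (h₂ : ∀ u a, Nin (fun (L : SGr σ J (j + 1)) (x : SGr σ J 1) => Inc x L) u a →
      Fp' u * Ew a = 0) (u v : C(SGr σ J (j + 1), ℂ))
    (h : ∀ L ∈ tsupport u, ∀ L' ∈ tsupport v, ∀ x : SGr σ J 1, Inc x L → ¬ Inc x L') :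
    Fp u * Fp' v = 0 :=
  t3_opp (In := Inc) inc_closed (E := Ew) (fun u a hn => h₁ u a fun L hL x hx => hn x hx L hL)
    (fun u a hn => h₂ u a fun L hL x hx => hn x hx L hL) u v h

end flip

end Vale.Agent.P092.H604.T3
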