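import Mathlib

/-!
P092, TEAM D, [D-KMET] (helper604).
Elementary metric lemmas on points and lines of the plane in the chart
`h = a + b p` (point `![h, 1, p]`, line `![-1, a, b]`) : two points of a strip on one line,
crossing of a strip and a line at distance `ρ`, counting in dyadic grids and boxes.
-/

namespace Vale.Agent.P092.H604

open Finset

/-! ### two points of a strip on one line -/

/-- Two points of the strip around `y` on the line `(a, b)`: the line is close to `y`. -/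
theorem two_pts {a b y1 y2 h p h' p' δ : ℝ} (hp : |p| ≤ 1) (e : h = a + b * p)
    (e' : h' = a + b * p') (s : |h - y1 - y2 * p| ≤ δ) (s' : |h' - y1 - y2 * p'| ≤ δ)
    (hpp : p ≠ p') :
    |b - y2| ≤ 2 * δ / |p - p'| ∧ |a - y1| ≤ δ + 2 * δ / |p - p'| := by
  have hd : 0 < |p - p'| := abs_pos.2 (sub_ne_zero.2 hpp)
  have h1 : |b - y2| ≤ 2 * δ / |p - p'| := by
    rw [le_div_iff₀ hd, ← abs_mul]
    have : (b - y2) * (p - p') = (h - y1 - y2 * p) - (h' - y1 - y2 * p') := by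
      rw [e, e']; ring
    rw [this]
    calc _ ≤ |h - y1 - y2 * p| + |h' - y1 - y2 * p'| := abs_sub _ _
      _ ≤ 2 * δ := by linarith
  refine ⟨h1, ?_⟩
  have h2 : a - y1 = (h - y1 - y2 * p) - (b - y2) * p := by rw [e]; ring
  calc |a - y1| = |(h - y1 - y2 * p) - (b - y2) * p| := by rw [← h2]
    _ ≤ |h - y1 - y2 * p| + |(b - y2) * p| := abs_sub _ _
    _ ≤ δ + |b - y2| := by
        rw [abs_mul]
        have := mul_le_mul_of_nonneg_left hp (abs_nonneg (b - y2))
        linarith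
    _ ≤ δ + 2 * δ / |p - p'| := by linarith

/-- The incidence of a homogeneous line and a chart point. -/
lemma dot_pt (t : Fin 3 → ℝ) (h p : ℝ) : t ⬝ᵥ ![h, 1, p] = t 0 * h + t 1 + t 2 * p := by
  simp [dotProduct, Fin.sum_univ_three]

lemma dot_three (t z : Fin 3 → ℝ) : t ⬝ᵥ z = t 0 * z 0 + t 1 * z 1 + t 2 * z 2 := by
  simp [dotProduct, Fin.sum_univ_three]

lemma eq_of_dot {t : Fin 3 → ℝ} {h p : ℝ} (h0 : t 0 ≠ 0) (e : t ⬝ᵥ ![h, 1, p] = 0) :
    h = -t 1 / t 0 + -t 2 / t 0 * p := by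
  rw [dot_pt] at e
  field_simp
  linarith

/-- A line through two chart points with different abscissa is a chart line. -/
lemma t0_ne {t : Fin 3 → ℝ} {h p h' p' : ℝ} (ht : t ≠ 0) (e : t ⬝ᵥ ![h, 1, p] = 0)
    (e' : t ⬝ᵥ ![h', 1, p'] = 0) (hpp : p ≠ p') : t 0 ≠ 0 := by
  intro h0
  rw [dot_pt, h0] at e e'
  have h2 : t 2 * (p - p') = 0 := by linarith
  have h2' : t 2 = 0 := by
    rcases mul_eq_zero.1 h2 with h | h
    · exact h
    · exact absurd (sub_eq_zero.1 h) hpp
  rw [h2'] at e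
  have h1 : t 1 = 0 := by linarith
  exact ht (by ext i; fin_cases i <;> simp [h0, h1, h2'])

/-- homogeneous form of `two_pts` -/
theorem two_pts' {t : Fin 3 → ℝ} {y1 y2 h p h' p' δ : ℝ} (ht : t ≠ 0) (hp : |p| ≤ 1)
    (e : t ⬝ᵥ ![h, 1, p] = 0) (e' : t ⬝ᵥ ![h', 1, p'] = 0) (s : |h - y1 - y2 * p| ≤ δ)
    (s' : |h' - y1 - y2 * p'| ≤ δ) (hpp : p ≠ p') :
    t 0 ≠ 0 ∧ |-t 2 / t 0 - y2| ≤ 2 * δ / |p - p'| ∧
      |-t 1 / t 0 - y1| ≤ δ + 2 * δ / |p - p'| := by
  have h0 := t0_ne ht e e' hpp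
  exact ⟨h0, two_pts hp (eq_of_dot h0 e) (eq_of_dot h0 e') s s' hpp⟩

/-- Two strip points at distance `≥ 4 δ / ρ` force the line to be at distance `< ρ` of `y`
(with `δ < ρ / 2`): contrapositive form. -/
theorem far_pts {t : Fin 3 → ℝ} {y1 y2 h p h' p' δ ρ : ℝ} (ht : t ≠ 0) (hδ : 0 ≤ δ) (hρ : 0 < ρ)
    (hδρ : 2 * δ < ρ) (far : t 0 = 0 ∨ ρ ≤ max |-t 1 / t 0 - y1| |-t 2 / t 0 - y2|)
    (hp : |p| ≤ 1) (e : t ⬝ᵥ ![h, 1, p] = 0) (e' : t ⬝ᵥ ![h', 1, p'] = 0)
    (s : |h - y1 - y2 * p| ≤ δ) (s' : |h' - y1 - y2 * p'| ≤ δ) :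
    |p - p'| ≤ 4 * δ / ρ := by
  by_contra hc
  push Not at hc
  have h4 : 0 ≤ 4 * δ / ρ := by positivity
  have hd : 0 < |p - p'| := lt_of_le_of_lt h4 hc
  have hpp : p ≠ p' := fun h => by simp [h] at hd
  obtain ⟨h0, h2, h1⟩ := two_pts' ht hp e e' s s' hpp
  have hk : 2 * δ / |p - p'| ≤ ρ / 2 := by
    rw [div_le_iff₀ hd]
    rw [div_lt_iff₀ hρ] at hc
    nlinarith
  rcases far with h | h
  · exact h0 h
  · have : max |-t 1 / t 0 - y1| |-t 2 / t 0 - y2| < ρ :=
      max_lt (by linarith) (by linarith)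
    linarith

/-! ### crossing -/

/-- **Crossing.**  `x = (h, p)` is in the `δ`-strip of `y` and on the line `t` at distance `≥ ρ`
of `y`; `z` is on `t` and on a line `m` in the `δ`-disc of `y`.  Then `z` is a chart point with
abscissa at distance `≤ 6 δ / ρ` of `p`. -/
theorem cross {t z : Fin 3 → ℝ} {y1 y2 m1 m2 h p δ ρ : ℝ} (ht : t ≠ 0) (hz : z ≠ 0)
    (hδ : 0 ≤ δ) (hρ : 0 < ρ) (hδρ : 4 * δ ≤ ρ)
    (far : t 0 = 0 ∨ ρ ≤ max |-t 1 / t 0 - y1| |-t 2 / t 0 - y2|)
    (hp : |p| ≤ 1) (s : |h - y1 - y2 * p| ≤ δ) (e : t ⬝ᵥ ![h, 1, p] = 0)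
    (hm1 : |m1 - y1| ≤ δ) (hm2 : |m2 - y2| ≤ δ) (ez : z 0 = m1 * z 1 + m2 * z 2)
    (etz : t ⬝ᵥ z = 0) : z 1 ≠ 0 ∧ |z 2 / z 1 - p| ≤ 6 * δ / ρ := by
  by_cases h0 : t 0 = 0
  · -- a line without `h`: `z` has the same abscissa
    have e1 : t 1 + t 2 * p = 0 := by
      have := e; rw [dot_pt, h0] at this; linarith
    have e2 : t 1 * z 1 + t 2 * z 2 = 0 := by
      have := etz; rw [dot_three, h0] at this; linarith
    have ht2 : t 2 ≠ 0 := by
      intro h2
      rw [h2] at e1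
      have h1 : t 1 = 0 := by linarith
      exact ht (by ext i; fin_cases i <;> simp [h0, h1, h2])
    have e3 : t 2 * (z 2 - p * z 1) = 0 := by
      have : t 1 = -(t 2 * p) := by linarith
      rw [this] at e2; linarith
    have e4 : z 2 = p * z 1 := by
      rcases mul_eq_zero.1 e3 with h | h
      · exact absurd h ht2
      · linarith
    have hz1 : z 1 ≠ 0 := by
      intro h1
      rw [h1, mul_zero] at e4
      rw [h1, e4] at ez
      exact hz (by ext i; fin_cases i <;> simp [h1, e4, ez])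
    refine ⟨hz1, ?_⟩
    rw [e4, mul_div_assoc, div_self hz1, mul_one, sub_self, abs_zero]
    positivity
  · have hfar : ρ ≤ max |-t 1 / t 0 - y1| |-t 2 / t 0 - y2| := by
      rcases far with h | h
      · exact absurd h h0
      · exact h
    set a : ℝ := -t 1 / t 0 with ha
    set b : ℝ := -t 2 / t 0 with hb
    have ex : h = a + b * p := eq_of_dot h0 e
    have ezt : z 0 = a * z 1 + b * z 2 := by
      rw [dot_three] at etz
      rw [ha, hb]; field_simp; linarith
    -- the slope difference is large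
    have hbl : ρ - δ ≤ |b - y2| := by
      rcases le_max_iff.1 hfar with h1 | h1
      · have h2 : a - y1 = (h - y1 - y2 * p) - (b - y2) * p := by rw [ex]; ring
        have h3 : |a - y1| ≤ δ + |b - y2| := by
          rw [h2]
          calc _ ≤ |h - y1 - y2 * p| + |(b - y2) * p| := abs_sub _ _
            _ ≤ δ + |b - y2| := by
              rw [abs_mul]
              have := mul_le_mul_of_nonneg_left hp (abs_nonneg (b - y2))
              linarith
        linarith
      · linarith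
    have hz1 : z 1 ≠ 0 := by
      intro h1
      rw [h1] at ez ezt
      have hz2 : z 2 ≠ 0 := by
        intro h2
        rw [h2] at ez
        exact hz (by ext i; fin_cases i <;> simp [h1, h2, ez])
      have e5 : (b - m2) * z 2 = 0 := by linarith
      have e6 : b = m2 := by
        rcases mul_eq_zero.1 e5 with h | h
        · linarith
        · exact absurd h hz2
      rw [e6] at hbl
      linarith
    refine ⟨hz1, ?_⟩
    set q : ℝ := z 2 / z 1 with hq
    have e7 : (b - m2) * q = m1 - a := by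
      rw [hq]; field_simp; linarith
    -- `(b - y2) (q - p) = (m1 - y1) + (m2 - y2) q - (h - y1 - y2 p)`
    have e8 : (b - y2) * (q - p) =
        (m1 - y1) + (m2 - y2) * p + (m2 - y2) * (q - p) - (h - y1 - y2 * p) := by
      have : m1 = a + (b - m2) * q := by linarith
      rw [this, ex]; ring
    have h9 : |b - y2| * |q - p| ≤ 3 * δ + δ * |q - p| := by
      rw [← abs_mul, e8]
      have k1 : |(m2 - y2) * p| ≤ δ := by
        rw [abs_mul]
        calc _ ≤ δ * 1 := mul_le_mul hm2 hp (abs_nonneg _) hδ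
          _ = δ := mul_one _
      have k2 : |(m2 - y2) * (q - p)| ≤ δ * |q - p| := by
        rw [abs_mul]
        exact mul_le_mul_of_nonneg_right hm2 (abs_nonneg _)
      calc |m1 - y1 + (m2 - y2) * p + (m2 - y2) * (q - p) - (h - y1 - y2 * p)|
          ≤ |m1 - y1 + (m2 - y2) * p + (m2 - y2) * (q - p)| + |h - y1 - y2 * p| := abs_sub _ _
        _ ≤ |m1 - y1 + (m2 - y2) * p| + |(m2 - y2) * (q - p)| + |h - y1 - y2 * p| := by
            gcongr; exact abs_add_le _ _
        _ ≤ |m1 - y1| + |(m2 - y2) * p| + |(m2 - y2) * (q - p)| + |h - y1 - y2 * p| := by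
            gcongr; exact abs_add_le _ _
        _ ≤ 3 * δ + δ * |q - p| := by linarith
    have h10 : (ρ / 2) * |q - p| ≤ 3 * δ := by
      have k3 : (ρ - δ) * |q - p| ≤ |b - y2| * |q - p| :=
        mul_le_mul_of_nonneg_right hbl (abs_nonneg _)
      have k4 : (ρ / 2) * |q - p| ≤ (ρ - 2 * δ) * |q - p| :=
        mul_le_mul_of_nonneg_right (by linarith) (abs_nonneg _)
      nlinarith
    rw [le_div_iff₀ hρ]
    nlinarith

/-- The deviation `(t 0 * y1 + t 1, t 0 * y2 + t 2)` of a line far from `y`. -/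
theorem dev_far {t : Fin 3 → ℝ} {y1 y2 ρ T : ℝ} (hy1 : |y1| ≤ 1) (hy2 : |y2| ≤ 1)
    (hρ : 0 ≤ ρ) (hρ3 : ρ ≤ 3) (far : t 0 = 0 ∨ ρ ≤ max |-t 1 / t 0 - y1| |-t 2 / t 0 - y2|)
    (hT : T ≤ max |t 0| (max |t 1| |t 2|)) :
    ρ / 4 * T ≤ max |t 0 * y1 + t 1| |t 0 * y2 + t 2| := by
  set M := max |t 0| (max |t 1| |t 2|) with hM
  have hM0 : 0 ≤ M := le_trans (abs_nonneg (t 0)) (le_max_left _ _)
  refine le_trans (mul_le_mul_of_nonneg_left hT (by positivity)) ?_
  have b0 : |t 0| ≤ M := le_max_left _ _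
  by_cases hs : |t 0| < M / 4
  · have hmax : M ≤ max |t 1| |t 2| := by
      rcases max_cases |t 0| (max |t 1| |t 2|) with h | h
      · rw [← hM] at h
        linarith [h.1]
      · rw [← hM] at h
        linarith [h.1]
    have key : ∀ u v y : ℝ, |y| ≤ 1 → |u| < M / 4 → M ≤ |v| → ρ / 4 * M ≤ |u * y + v| := by
      intro u v y hy hu hv
      have h1 : |u * y| ≤ M / 4 := by
        rw [abs_mul]
        calc |u| * |y| ≤ |u| * 1 := mul_le_mul_of_nonneg_left hy (abs_nonneg _)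
          _ ≤ M / 4 := by linarith
      have h2 : |v| ≤ |u * y + v| + |u * y| := by
        calc |v| = |(u * y + v) - u * y| := by ring_nf
          _ ≤ _ := abs_sub _ _
      nlinarith
    rcases le_max_iff.1 hmax with h | h
    · exact le_trans (key _ _ _ hy1 hs h) (le_max_left _ _)
    · exact le_trans (key _ _ _ hy2 hs h) (le_max_right _ _)
  · push Not at hs
    by_cases h0 : t 0 = 0
    · have hM4 : M ≤ 0 := by rw [h0, abs_zero] at hs; linarith
      have : M = 0 := le_antisymm hM4 hM0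
      rw [this, mul_zero]
      exact le_trans (abs_nonneg _) (le_max_left _ _)
    · have hfar : ρ ≤ max |-t 1 / t 0 - y1| |-t 2 / t 0 - y2| := by
        rcases far with h | h
        · exact absurd h h0
        · exact h
      have key : ∀ v y : ℝ, ρ ≤ |-v / t 0 - y| → ρ / 4 * M ≤ |t 0 * y + v| := by
        intro v y h
        have e : t 0 * y + v = -(t 0 * (-v / t 0 - y)) := by field_simp; ring
        rw [e, abs_neg, abs_mul]
        calc ρ / 4 * M = M / 4 * ρ := by ring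
          _ ≤ |t 0| * |-v / t 0 - y| := mul_le_mul hs h hρ (abs_nonneg _)
      rcases le_max_iff.1 hfar with h | h
      · exact le_trans (key _ _ h) (le_max_left _ _)
      · exact le_trans (key _ _ h) (le_max_right _ _)

/-- **Robust crossing.**  `x = (h, p)` is in the `δ`-strip of `y` and `e`-almost on the line `t`
at distance `≥ ρ` of `y`; the homogeneous point `z` is on `t` and in the homogeneous `δ`-strip
of `y`.  Then `z` is a chart point with abscissa at distance `≤ 8 (3 δ + e) / ρ` of `p`. -/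
theorem cross_e {t z : Fin 3 → ℝ} {y1 y2 h p δ e ρ : ℝ} (ht : t ≠ 0) (hz : z ≠ 0)
    (hy1 : |y1| ≤ 1) (hy2 : |y2| ≤ 1) (hδ : 0 ≤ δ) (he : 0 ≤ e) (hρ : 0 < ρ) (hρ3 : ρ ≤ 3)
    (hδρ : 8 * (e + 2 * δ) ≤ ρ)
    (far : t 0 = 0 ∨ ρ ≤ max |-t 1 / t 0 - y1| |-t 2 / t 0 - y2|)
    (hp : |p| ≤ 1) (s : |h - y1 - y2 * p| ≤ δ)
    (hx : |t 0 * h + t 1 + t 2 * p| ≤ e * max |t 0| (max |t 1| |t 2|))
    (hzs : |z 0 - y1 * z 1 - y2 * z 2| ≤ δ * (|z 1| + |z 2|))
    (etz : t ⬝ᵥ z = 0) : z 1 ≠ 0 ∧ |z 2 / z 1 - p| ≤ 8 * (3 * δ + e) / ρ := by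
  have hdev := dev_far (T := max |t 0| (max |t 1| |t 2|)) hy1 hy2 hρ.le hρ3 far le_rfl
  set M := max |t 0| (max |t 1| |t 2|) with hM
  have b0 : |t 0| ≤ M := le_max_left _ _
  have hMpos : 0 < M := by
    rcases lt_or_eq_of_le (le_trans (abs_nonneg (t 0)) b0) with h | h
    · exact h
    · exfalso
      apply ht
      have h0 : |t 0| ≤ 0 := by rw [h]; exact le_max_left _ _
      have h1 : |t 1| ≤ 0 := by rw [h]; exact le_trans (le_max_left _ _) (le_max_right _ _)
      have h2 : |t 2| ≤ 0 := by rw [h]; exact le_trans (le_max_right _ _) (le_max_right _ _)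
      have h0' := abs_nonpos_iff.1 h0
      have h1' := abs_nonpos_iff.1 h1
      have h2' := abs_nonpos_iff.1 h2
      ext i; fin_cases i <;> simp [h0', h1', h2']
  set α := t 0 * y1 + t 1 with hα
  set β := t 0 * y2 + t 2 with hβ
  have hab : |α + β * p| ≤ (e + δ) * M := by
    have : α + β * p = (t 0 * h + t 1 + t 2 * p) - t 0 * (h - y1 - y2 * p) := by
      rw [hα, hβ]; ring
    rw [this]
    calc _ ≤ |t 0 * h + t 1 + t 2 * p| + |t 0 * (h - y1 - y2 * p)| := abs_sub _ _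
      _ ≤ e * M + M * δ := by
          rw [abs_mul]
          exact add_le_add hx (mul_le_mul b0 s (abs_nonneg _) hMpos.le)
      _ = _ := by ring
  have hβl : (ρ / 4 - (e + δ)) * M ≤ |β| := by
    have h1 : |α| ≤ |β| + (e + δ) * M := by
      calc |α| = |(α + β * p) - β * p| := by ring_nf
        _ ≤ |α + β * p| + |β * p| := abs_sub _ _
        _ ≤ (e + δ) * M + |β| := by
            rw [abs_mul]
            have := mul_le_mul_of_nonneg_left hp (abs_nonneg β)
            linarith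
        _ = _ := by ring
    have h2 : 0 ≤ (e + δ) * M := by positivity
    rcases le_max_iff.1 hdev with h | h <;> nlinarith
  set w := z 0 - y1 * z 1 - y2 * z 2 with hw
  have hid : β * (z 2 - p * z 1) = -(t 0 * w) - (α + β * p) * z 1 := by
    rw [dot_three] at etz
    rw [hw, hα, hβ]; linear_combination etz
  have hup : |β| * |z 2 - p * z 1| ≤
      M * (δ * (|z 1| + |z 2|)) + (e + δ) * M * |z 1| := by
    rw [← abs_mul, hid]
    calc |-(t 0 * w) - (α + β * p) * z 1| ≤ |-(t 0 * w)| + |(α + β * p) * z 1| := abs_sub _ _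
      _ = |t 0| * |w| + |α + β * p| * |z 1| := by rw [abs_neg, abs_mul, abs_mul]
      _ ≤ _ := add_le_add (mul_le_mul b0 hzs (abs_nonneg _) hMpos.le)
          (mul_le_mul_of_nonneg_right hab (abs_nonneg _))
  have hz2 : |z 2| ≤ |z 1| + |z 2 - p * z 1| := by
    calc |z 2| = |p * z 1 + (z 2 - p * z 1)| := by ring_nf
      _ ≤ |p * z 1| + |z 2 - p * z 1| := abs_add_le _ _
      _ ≤ |z 1| + |z 2 - p * z 1| := by
          rw [abs_mul]
          have := mul_le_mul_of_nonneg_right hp (abs_nonneg (z 1))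
          linarith
  set D := |z 2 - p * z 1| with hD
  have hD0 : 0 ≤ D := abs_nonneg _
  have hmain : (ρ / 8) * D ≤ (3 * δ + e) * |z 1| := by
    have h1 : (ρ / 4 - (e + δ)) * M * D ≤
        M * (δ * (|z 1| + |z 2|)) + (e + δ) * M * |z 1| :=
      le_trans (mul_le_mul_of_nonneg_right hβl hD0) hup
    have h2 : M * ((ρ / 4 - (e + δ)) * D) ≤
        M * (δ * (|z 1| + |z 2|) + (e + δ) * |z 1|) := by
      calc _ = (ρ / 4 - (e + δ)) * M * D := by ring
        _ ≤ _ := h1
        _ = _ := by ring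
    have h3 : (ρ / 4 - (e + δ)) * D ≤ δ * (|z 1| + |z 2|) + (e + δ) * |z 1| :=
      le_of_mul_le_mul_left h2 hMpos
    have h4 : δ * |z 2| ≤ δ * (|z 1| + D) := mul_le_mul_of_nonneg_left hz2 hδ
    have h5 : (ρ / 8) * D ≤ (ρ / 4 - (e + 2 * δ)) * D :=
      mul_le_mul_of_nonneg_right (by linarith) hD0
    nlinarith
  have hz1 : z 1 ≠ 0 := by
    intro h1
    rw [h1, abs_zero, mul_zero] at hmain
    have hD1 : D ≤ 0 := by
      by_contra hc
      push Not at hc
      have : 0 < ρ / 8 * D := by positivity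
      linarith
    have hz2' : z 2 = 0 := by
      have : |z 2| ≤ 0 := by
        calc |z 2| ≤ |z 1| + D := hz2
          _ ≤ 0 := by rw [h1, abs_zero]; linarith
      exact abs_nonpos_iff.1 this
    have hz0 : z 0 = 0 := by
      have : |w| ≤ 0 := by
        calc |w| ≤ _ := hzs
          _ = 0 := by rw [h1, hz2']; simp
      have hw0 := abs_nonpos_iff.1 this
      rw [hw, h1, hz2'] at hw0
      linarith
    exact hz (by ext i; fin_cases i <;> simp [h1, hz0, hz2'])
  refine ⟨hz1, ?_⟩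
  have hz1' : 0 < |z 1| := abs_pos.2 hz1
  have e1 : |z 2 / z 1 - p| = D / |z 1| := by
    rw [hD, ← abs_div]
    congr 1
    field_simp
  rw [e1, div_le_div_iff₀ hz1' hρ]
  nlinarith

/-- A point of a line in the `δ`-disc of `y` is in the homogeneous `δ`-strip of `y`. -/
theorem strip {z : Fin 3 → ℝ} {y1 y2 m1 m2 δ : ℝ} (hm1 : |m1 - y1| ≤ δ) (hm2 : |m2 - y2| ≤ δ)
    (ez : z 0 = m1 * z 1 + m2 * z 2) : |z 0 - y1 * z 1 - y2 * z 2| ≤ δ * (|z 1| + |z 2|) := by
  have : z 0 - y1 * z 1 - y2 * z 2 = (m1 - y1) * z 1 + (m2 - y2) * z 2 := by rw [ez]; ring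
  rw [this]
  calc _ ≤ |(m1 - y1) * z 1| + |(m2 - y2) * z 2| := abs_add_le _ _
    _ = |m1 - y1| * |z 1| + |m2 - y2| * |z 2| := by rw [abs_mul, abs_mul]
    _ ≤ δ * |z 1| + δ * |z 2| := add_le_add (mul_le_mul_of_nonneg_right hm1 (abs_nonneg _))
        (mul_le_mul_of_nonneg_right hm2 (abs_nonneg _))
    _ = _ := by ring

/-- chart form -/
theorem strip' {y1 y2 m1 m2 δ h p : ℝ} (hm1 : |m1 - y1| ≤ δ) (hm2 : |m2 - y2| ≤ δ)
    (e : h = m1 + m2 * p) : |h - y1 - y2 * p| ≤ δ * (1 + |p|) := by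
  have := strip (z := ![h, 1, p]) hm1 hm2 (by simpa using e)
  simpa using this

/-! ### counting -/

/-- Integers at distance `≤ A` of a real. -/
theorem card_int_le (x A : ℝ) (hA : 0 ≤ A) (T : Finset ℤ) (hT : ∀ c ∈ T, |x - c| ≤ A) :
    (T.card : ℝ) ≤ 2 * A + 1 := by
  have hs : T ⊆ Finset.Icc ⌈x - A⌉ ⌊x + A⌋ := by
    intro c hc
    have h := abs_le.1 (hT c hc)
    rw [Finset.mem_Icc]
    exact ⟨Int.ceil_le.2 (by linarith [h.2]), Int.le_floor.2 (by linarith [h.1])⟩
  have h1 := Finset.card_le_card hs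
  rw [Int.card_Icc] at h1
  have h2 : ((⌊x + A⌋ + 1 - ⌈x - A⌉).toNat : ℝ) ≤ 2 * A + 1 := by
    have h3 : ((⌊x + A⌋ + 1 - ⌈x - A⌉ : ℤ) : ℝ) ≤ 2 * A + 1 := by
      push_cast
      have h4 := Int.floor_le (x + A)
      have h5 := Int.le_ceil (x - A)
      linarith
    rcases le_total 0 (⌊x + A⌋ + 1 - ⌈x - A⌉) with h6 | h6
    · have h7 : ((⌊x + A⌋ + 1 - ⌈x - A⌉).toNat : ℤ) = ⌊x + A⌋ + 1 - ⌈x - A⌉ := Int.toNat_of_nonneg h6
      have h8 : ((⌊x + A⌋ + 1 - ⌈x - A⌉).toNat : ℝ) = ((⌊x + A⌋ + 1 - ⌈x - A⌉ : ℤ) : ℝ) :=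
        congrArg (fun z : ℤ => (z : ℝ)) h7
      rw [h8]; exact h3
    · rw [Int.toNat_of_nonpos h6]; push_cast; linarith
  calc (T.card : ℝ) ≤ ((⌊x + A⌋ + 1 - ⌈x - A⌉).toNat : ℝ) := by exact_mod_cast h1
    _ ≤ _ := h2

/-- Integer pairs at distance `≤ A` of a real pair. -/
theorem card_int2_le (x y A : ℝ) (hA : 0 ≤ A) (T : Finset (ℤ × ℤ))
    (hT : ∀ c ∈ T, |x - c.1| ≤ A ∧ |y - c.2| ≤ A) :
    (T.card : ℝ) ≤ (2 * A + 1) ^ 2 := by
  have h1 := card_int_le x A hA (T.image Prod.fst) (by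
    intro c hc
    obtain ⟨d, hd, rfl⟩ := Finset.mem_image.1 hc
    exact (hT d hd).1)
  have h2 := card_int_le y A hA (T.image Prod.snd) (by
    intro c hc
    obtain ⟨d, hd, rfl⟩ := Finset.mem_image.1 hc
    exact (hT d hd).2)
  have hs : T ⊆ (T.image Prod.fst) ×ˢ (T.image Prod.snd) := by
    intro c hc
    rw [Finset.mem_product]
    exact ⟨Finset.mem_image_of_mem _ hc, Finset.mem_image_of_mem _ hc⟩
  have h3 : T.card ≤ (T.image Prod.fst).card * (T.image Prod.snd).card := by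
    rw [← Finset.card_product]; exact Finset.card_le_card hs
  calc (T.card : ℝ) ≤ ((T.image Prod.fst).card * (T.image Prod.snd).card : ℕ) := by
        exact_mod_cast h3
    _ = ((T.image Prod.fst).card : ℝ) * ((T.image Prod.snd).card : ℝ) := by push_cast; ring
    _ ≤ (2 * A + 1) * (2 * A + 1) := by
        apply mul_le_mul h1 h2 (Nat.cast_nonneg _); linarith
    _ = _ := by ring

/-- Counting in an `s`-square from counting in `r`-squares. -/
theorem card_sq_le {ι : Type*} [DecidableEq ι] (S : Finset ι) (y : ι → ℝ × ℝ) {r s : ℝ}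
    (hr : 0 < r) (hs : 0 ≤ s) (N : ℕ)
    (hN : ∀ n : ℝ × ℝ, (S.filter fun k => |(y k).1 - n.1| ≤ r ∧ |(y k).2 - n.2| ≤ r).card ≤ N)
    (n : ℝ × ℝ) :
    ((S.filter fun k => |(y k).1 - n.1| ≤ s ∧ |(y k).2 - n.2| ≤ s).card : ℝ)
      ≤ (2 * (s / r) + 3) ^ 2 * N := by
  classical
  set S' := S.filter fun k => |(y k).1 - n.1| ≤ s ∧ |(y k).2 - n.2| ≤ s with hS'
  let c : ι → ℤ × ℤ := fun k => (⌊((y k).1 - n.1) / r⌋, ⌊((y k).2 - n.2) / r⌋)
  have h1 : S'.card ≤ (S'.image c).card * N := by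
    have : S'.card = ∑ d ∈ S'.image c, (S'.filter fun k => c k = d).card :=
      Finset.card_eq_sum_card_image c S'
    rw [this]
    calc _ ≤ ∑ d ∈ S'.image c, N := by
          refine Finset.sum_le_sum fun d _ => ?_
          refine le_trans (Finset.card_le_card ?_) (hN (n.1 + r * d.1, n.2 + r * d.2))
          intro k hk
          rw [Finset.mem_filter] at hk ⊢
          obtain ⟨hk1, hk2⟩ := hk
          refine ⟨(Finset.mem_filter.1 hk1).1, ?_⟩
          have e1 : ⌊((y k).1 - n.1) / r⌋ = d.1 := congrArg Prod.fst hk2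
          have e2 : ⌊((y k).2 - n.2) / r⌋ = d.2 := congrArg Prod.snd hk2
          have key : ∀ (u : ℝ) (m : ℤ), ⌊u / r⌋ = m → |u - r * m| ≤ r := by
            intro u m hm
            rw [Int.floor_eq_iff] at hm
            obtain ⟨a1, a2⟩ := hm
            rw [le_div_iff₀ hr] at a1
            rw [div_lt_iff₀ hr] at a2
            rw [abs_le]
            constructor <;> nlinarith
          have k1 := key _ _ e1
          have k2 := key _ _ e2
          constructor
          · have : (y k).1 - (n.1 + r * d.1) = (y k).1 - n.1 - r * d.1 := by ring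
            simpa [this] using k1
          · have : (y k).2 - (n.2 + r * d.2) = (y k).2 - n.2 - r * d.2 := by ring
            simpa [this] using k2
      _ = (S'.image c).card * N := by rw [Finset.sum_const, smul_eq_mul]
  have h2 : ((S'.image c).card : ℝ) ≤ (2 * (s / r + 1) + 1) ^ 2 := by
    refine card_int2_le 0 0 (s / r + 1) (by positivity) _ ?_
    intro d hd
    obtain ⟨k, hk, rfl⟩ := Finset.mem_image.1 hd
    obtain ⟨-, hk1, hk2⟩ := Finset.mem_filter.1 hk
    have key : ∀ u : ℝ, |u| ≤ s → |(0 : ℝ) - (⌊u / r⌋ : ℝ)| ≤ s / r + 1 := by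
      intro u hu
      have a1 := Int.floor_le (u / r)
      have a2 := Int.lt_floor_add_one (u / r)
      have a3 : |u / r| ≤ s / r := by
        rw [abs_div, abs_of_pos hr]
        exact div_le_div_of_nonneg_right hu hr.le
      obtain ⟨a4, a5⟩ := abs_le.1 a3
      rw [abs_le]
      constructor <;> linarith
    exact ⟨key _ hk1, key _ hk2⟩
  calc (S'.card : ℝ) ≤ ((S'.image c).card * N : ℕ) := by exact_mod_cast h1
    _ = ((S'.image c).card : ℝ) * N := by push_cast; ring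
    _ ≤ (2 * (s / r + 1) + 1) ^ 2 * N := by gcongr
    _ = _ := by ring

end Vale.Agent.P092.H604
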