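import Vale.Agent.P092.H820.Pn
import Vale.Agent.P092.H466.Pvm2
import Vale.Agent.P092.H464.Pv
import Vale.Agent.P092.H604.Met

/-!
P092, TEAM D, [D-KMET], (KP) (helper604).
The projective plane `ℙ ℝ (Fin 3 → ℝ)` as a compact metrizable Borel space; the measurable
section `sec` of homogeneous coordinates; `Pv`, `CI` for the Borel projection valued measures
of *-homomorphisms.
-/

namespace Vale.Agent.P092.H604

open Vale.Agent.P092.H820 Projectivization Topology TopologicalSpace Set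
open scoped LinearAlgebra.Projectivization Matrix InnerProductSpace

section Inst

variable {k : Type*} [NormedField k] [ProperSpace k] {ι : Type*} [Fintype ι]

instance scP : SecondCountableTopology (ℙ k (ι → k)) := by
  have hq := pj_oq (k := k) (ι := ι)
  exact (hq.isQuotientMap).secondCountableTopology hq.isOpenMap

instance mzP : MetrizableSpace (ℙ k (ι → k)) := inferInstance

instance mP : MeasurableSpace (ℙ k (ι → k)) := borel _

instance bP : BorelSpace (ℙ k (ι → k)) := ⟨rfl⟩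

end Inst

/-- points (and lines) of the real projective plane -/
abbrev P2 : Type := ℙ ℝ (Fin 3 → ℝ)

abbrev V3 : Type := {v : Fin 3 → ℝ // v ≠ 0}

lemma sq_pos {v : Fin 3 → ℝ} (hv : v ≠ 0) : 0 < v ⬝ᵥ v := by
  rcases Function.ne_iff.1 hv with ⟨i, hi⟩
  have h : 0 ≤ v ⬝ᵥ v := Finset.sum_nonneg fun j _ => mul_self_nonneg (v j)
  refine lt_of_le_of_ne h fun h0 => hi ?_
  have := (Finset.sum_eq_zero_iff_of_nonneg (fun j _ => mul_self_nonneg (v j))).1 h0.symm i
    (Finset.mem_univ i)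
  exact mul_self_eq_zero.1 this

/-- the rank one projection `v_i v_j / |v|²` -/
noncomputable def Pr : P2 → Fin 3 → Fin 3 → ℝ :=
  Quotient.lift (fun v : V3 => fun i j => v.1 i * v.1 j / (v.1 ⬝ᵥ v.1)) (by
    rintro v w ⟨c, hc⟩
    funext i j
    have hc' : (c : ℝ) ≠ 0 := c.ne_zero
    have h1 := (sq_pos w.2).ne'
    have e : ∀ i, v.1 i = c * w.1 i := fun i => by rw [← hc]; rfl
    have e2 : v.1 ⬝ᵥ v.1 = c * c * (w.1 ⬝ᵥ w.1) := by
      simp only [dotProduct, e, Finset.mul_sum]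
      exact Finset.sum_congr rfl fun i _ => by ring
    simp only [e2, e i, e j]
    field_simp)

lemma Pr_pj (v : V3) (i j : Fin 3) :
    Pr (pj ℝ (Fin 3) v) i j = v.1 i * v.1 j / (v.1 ⬝ᵥ v.1) := rfl

lemma Pr_continuous : Continuous Pr := by
  refine (pj_oq (k := ℝ) (ι := Fin 3)).isQuotientMap.continuous_iff.2 ?_
  refine continuous_pi fun i => continuous_pi fun j => ?_
  have : (fun v : V3 => (Pr ∘ pj ℝ (Fin 3)) v i j) =
      fun v : V3 => v.1 i * v.1 j / (v.1 ⬝ᵥ v.1) := rfl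
  rw [this]
  have hc : Continuous fun v : V3 => v.1 := continuous_subtype_val
  refine Continuous.div ?_ (hc.dotProduct hc) fun v => (sq_pos v.2).ne'
  exact ((continuous_apply i).comp hc).mul ((continuous_apply j).comp hc)

open Classical in
/-- a measurable choice of homogeneous coordinates -/
noncomputable def sec (x : P2) : Fin 3 → ℝ :=
  if Pr x 0 0 ≠ 0 then fun i => Pr x i 0 else
    if Pr x 1 1 ≠ 0 then fun i => Pr x i 1 else fun i => Pr x i 2

lemma measurable_sec : Measurable sec := by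
  have h : ∀ i j, Measurable fun x => Pr x i j := fun i j =>
    ((continuous_apply j).comp ((continuous_apply i).comp Pr_continuous)).measurable
  have hs : ∀ i, MeasurableSet {x : P2 | Pr x i i ≠ 0} := fun i =>
    (measurableSet_singleton (0 : ℝ)).compl.preimage (h i i)
  refine Measurable.ite (hs 0) (measurable_pi_lambda _ fun i => h i 0) ?_
  exact Measurable.ite (hs 1) (measurable_pi_lambda _ fun i => h i 1)
    (measurable_pi_lambda _ fun i => h i 2)

/-- `sec (pj v)` is a nonzero multiple of `v` -/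
lemma sec_pj (v : V3) : ∃ c : ℝ, c ≠ 0 ∧ sec (pj ℝ (Fin 3) v) = c • v.1 := by
  have hv := (sq_pos v.2).ne'
  have key : ∀ j, v.1 j ≠ 0 → (fun i => Pr (pj ℝ (Fin 3) v) i j) = (v.1 j / (v.1 ⬝ᵥ v.1)) • v.1 := by
    intro j _
    funext i
    rw [Pr_pj, Pi.smul_apply, smul_eq_mul]; ring
  have hne : ∀ j, v.1 j ≠ 0 → v.1 j / (v.1 ⬝ᵥ v.1) ≠ 0 := fun j hj => div_ne_zero hj hv
  have hd : ∀ j, Pr (pj ℝ (Fin 3) v) j j ≠ 0 ↔ v.1 j ≠ 0 := by
    intro j
    rw [Pr_pj]
    constructor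
    · intro h h0; exact h (by rw [h0]; simp)
    · intro h; exact div_ne_zero (mul_ne_zero h h) hv
  unfold sec
  by_cases h0 : Pr (pj ℝ (Fin 3) v) 0 0 ≠ 0
  · rw [if_pos h0]
    exact ⟨_, hne 0 ((hd 0).1 h0), key 0 ((hd 0).1 h0)⟩
  · rw [if_neg h0]
    by_cases h1 : Pr (pj ℝ (Fin 3) v) 1 1 ≠ 0
    · rw [if_pos h1]
      exact ⟨_, hne 1 ((hd 1).1 h1), key 1 ((hd 1).1 h1)⟩
    · rw [if_neg h1]
      have h2 : v.1 2 ≠ 0 := by
        intro h2
        apply v.2
        have e0 : v.1 0 = 0 := by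
          by_contra h
          exact h0 ((hd 0).2 h)
        have e1 : v.1 1 = 0 := by
          by_contra h
          exact h1 ((hd 1).2 h)
        ext i; fin_cases i <;> simp [e0, e1, h2]
      exact ⟨_, hne 2 h2, key 2 h2⟩

lemma sec_ne (x : P2) : sec x ≠ 0 := by
  obtain ⟨v, rfl⟩ := pj_surj x
  obtain ⟨c, hc, e⟩ := sec_pj v
  rw [e]
  exact smul_ne_zero hc v.2

lemma pj_sec (x : P2) : pj ℝ (Fin 3) ⟨sec x, sec_ne x⟩ = x := by
  obtain ⟨v, rfl⟩ := pj_surj x
  obtain ⟨c, hc, e⟩ := sec_pj v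
  rw [pj_eq]
  exact ⟨Units.mk0 c hc, e.symm⟩

/-- ratios of coordinates do not depend on the choice -/
lemma sec_div (v : V3) (i j : Fin 3) :
    sec (pj ℝ (Fin 3) v) i / sec (pj ℝ (Fin 3) v) j = v.1 i / v.1 j := by
  obtain ⟨c, hc, e⟩ := sec_pj v
  rw [e, Pi.smul_apply, Pi.smul_apply, smul_eq_mul, smul_eq_mul, mul_div_mul_left _ _ hc]

lemma sec_ne_iff (v : V3) (i : Fin 3) : sec (pj ℝ (Fin 3) v) i ≠ 0 ↔ v.1 i ≠ 0 := by
  obtain ⟨c, hc, e⟩ := sec_pj v
  rw [e, Pi.smul_apply, smul_eq_mul]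
  exact ⟨fun h => right_ne_zero_of_mul h, fun h => mul_ne_zero hc h⟩

/-- incidence through the section -/
lemma inc3_sec (x n : P2) : (x, n) ∈ inc3 (k := ℝ) ↔ sec x ⬝ᵥ sec n = 0 := by
  conv_lhs => rw [← pj_sec x, ← pj_sec n]
  exact orthogonal_iff _ _

/-! ### `Pv`, `CI` -/

section PV

variable {X : Type*} [TopologicalSpace X] [CompactSpace X] [MetrizableSpace X]
  [MeasurableSpace X] [BorelSpace X]
  {Y : Type*} [TopologicalSpace Y] [CompactSpace Y] [MetrizableSpace Y]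
  [MeasurableSpace Y] [BorelSpace Y]
  {K : Type*} [NormedAddCommGroup K] [InnerProductSpace ℂ K] [CompleteSpace K]
  (φ : C(X, ℂ) →⋆ₐ[ℂ] (K →L[ℂ] K)) (ψ : C(Y, ℂ) →⋆ₐ[ℂ] (K →L[ℂ] K))

/-- **(KP2)** -/
theorem pv_Pv : H464.Pv (H466.pv φ) where
  sa A _ := H466.pv_star φ A
  inter _ _ hA hB := H466.pv_inter φ hA hB
  compl _ hA := H466.pv_compl φ hA

/-- **(KP3)** a commuting pair carried by the closed relation `I`: all Borel sets -/
theorem pv_CI {I : X → Y → Prop} (hI : IsClosed {p : X × Y | I p.1 p.2})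
    (hc : ∀ (f : C(X, ℂ)) (g : C(Y, ℂ)), φ f * ψ g = ψ g * φ f)
    (ho : ∀ (f : C(X, ℂ)) (g : C(Y, ℂ)),
      (∀ x ∈ tsupport f, ∀ y ∈ tsupport g, ¬ I x y) → φ f * ψ g = 0) :
    H464.CI I (H466.pv φ) (H466.pv ψ) where
  comm A N _ _ := H466.pv_pv_comm φ ψ hc A N
  inc A N _ _ h := by
    ext η
    have := H466.pv_supp φ ψ hI (1 : K →L[ℂ] K) (fun f g hd η => by
      have h1 := ho f g (fun x hx y hy hxy => disjoint_left.1 hd (mk_mem_prod hx hy) hxy)
      have h2 := congrArg (fun T : K →L[ℂ] K => T η) h1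
      simpa using h2) (A := A) (B := N)
      (disjoint_left.2 fun p hp hpI => h p.1 hp.1 p.2 hp.2 hpI) η
    simpa using this

end PV

end Vale.Agent.P092.H604
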