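import Vale.Agent.P092.H437.P2Td

/-!
P092, TEAM P, Track 2 (Witt index `r ≥ 3`), the flip `1 ↔ r` is impossible: helper766 #9262 (B).

`X₁` = points, `X₂` = isotropic `(r-1)`-spaces, `X₃` = maximal isotropic subspaces of the target;
`In x L` = `x ∈ L`, `Sb A L` = `A ⊂ L`.  A flipped leg after the rank count gives calculi `E w` on
points (`w` a maximal subspace of the source), `F p` on maximal subspaces (`p` a source point),
`G l` on `(r-1)`-spaces (`l` a source line).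
-/

set_option linter.all false

namespace Vale.Agent.P092.H604.T3

open Set Topology
open Vale.Agent.P092.H232 (Nin two_ind split_inc)

section trans

variable {A B Z K : Type*} [TopologicalSpace A] [CompactSpace A] [T2Space A]
  [TopologicalSpace B] [CompactSpace B] [T2Space B]
  [TopologicalSpace Z] [CompactSpace Z] [T2Space Z]
  [NormedAddCommGroup K] [InnerProductSpace ℂ K] [CompleteSpace K]

/-- Incidence through a third calculus: if `φ` is incident with `ψ` for `I` and `ψ` with `β` for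
`J`, then `φ g * β a = 0` as soon as no `z` is incident with an element of the support of `g` and
with an element of the support of `a`. -/
theorem inc_trans {I : A → Z → Prop} {J : B → Z → Prop}
    (hI : IsClosed {q : A × Z | I q.1 q.2}) (hJ : IsClosed {q : B × Z | J q.1 q.2})
    (φ : C(A, ℂ) →⋆ₐ[ℂ] (K →L[ℂ] K)) (ψ : C(Z, ℂ) →⋆ₐ[ℂ] (K →L[ℂ] K))
    (β : C(B, ℂ) →⋆ₐ[ℂ] (K →L[ℂ] K))
    (i₁ : ∀ g u, Nin I g u → φ g * ψ u = 0) (i₂ : ∀ a u, Nin J a u → ψ u * β a = 0)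
    (g : C(A, ℂ)) (a : C(B, ℂ)) (h : ∀ x ∈ tsupport ⇑g, ∀ b ∈ tsupport ⇑a, ∀ z, I x z → ¬ J b z) :
    φ g * β a = 0 := by
  refine two_ind (A := K →L[ℂ] K) (S₁ := tsupport ⇑g) (S₂ := tsupport ⇑a)
    (fun g' a' => φ g' * β a')
    (fun u' u'' a' => by simp only [map_add, add_mul])
    (fun u' a' a'' => by simp only [map_add, mul_add])
    (isClosed_tsupport _).isCompact (isClosed_tsupport _).isCompact
    (fun x hx b hb => ?_) g a subset_rfl subset_rfl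
  obtain ⟨v₁, v₂, hv, O, V, hO, hxO, hV, hbV, h1, h2⟩ :=
    split_inc hI hJ (x := x) (y := b) (1 : C(Z, ℂ)) (fun z _ hxz hbz => h x hx b hb z hxz hbz)
  refine ⟨O, V, hO, hxO, hV, hbV, fun g' a' hg' ha' => ?_⟩
  calc φ g' * β a' = φ g' * ψ 1 * β a' := by rw [map_one, mul_one]
    _ = 0 := by
      rw [hv, map_add, mul_add, add_mul, i₁ _ _ (h1 _ hg'), zero_mul, zero_add, mul_assoc,
        i₂ _ _ (h2 _ ha'), mul_zero]

end trans

section flip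

variable {X₁ X₂ X₃ K : Type*} [TopologicalSpace X₁] [CompactSpace X₁] [T2Space X₁]
  [TopologicalSpace X₂] [CompactSpace X₂] [T2Space X₂] [TotallyDisconnectedSpace X₂]
  [TopologicalSpace X₃] [CompactSpace X₃] [T2Space X₃]
  [NormedAddCommGroup K] [InnerProductSpace ℂ K] [CompleteSpace K]
  {In : X₁ → X₃ → Prop} {Sb : X₂ → X₃ → Prop}
  (hIn : IsClosed {q : X₁ × X₃ | In q.1 q.2}) (hSb : IsClosed {q : X₂ × X₃ | Sb q.1 q.2})
  (geo : ∀ x L A A', ¬ In x L → Sb A L → Sb A' L → (∃ M, In x M ∧ Sb A M) →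
    (∃ M, In x M ∧ Sb A' M) → A = A')

/-- a point and an `(r-1)`-space in a common maximal subspace -/
def Pp (In : X₁ → X₃ → Prop) (Sb : X₂ → X₃ → Prop) (x : X₁) (A : X₂) : Prop :=
  ∃ M, In x M ∧ Sb A M

include hIn hSb in
theorem isClosed_Pp : IsClosed {q : X₁ × X₂ | Pp In Sb q.1 q.2} := by
  have h : {q : X₁ × X₂ | Pp In Sb q.1 q.2} =
      Prod.fst '' {q : (X₁ × X₂) × X₃ | In q.1.1 q.2 ∧ Sb q.1.2 q.2} := by
    ext q
    constructor
    · rintro ⟨z, h1, h2⟩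
      exact ⟨(q, z), ⟨h1, h2⟩, rfl⟩
    · rintro ⟨⟨q', z⟩, ⟨h1, h2⟩, rfl⟩
      exact ⟨z, h1, h2⟩
  rw [h]
  have h1 : IsClosed {q : (X₁ × X₂) × X₃ | In q.1.1 q.2} :=
    hIn.preimage (f := fun q : (X₁ × X₂) × X₃ => (q.1.1, q.2)) (by fun_prop)
  have h2 : IsClosed {q : (X₁ × X₂) × X₃ | Sb q.1.2 q.2} :=
    hSb.preimage (f := fun q : (X₁ × X₂) × X₃ => (q.1.2, q.2)) (by fun_prop)
  exact ((h1.inter h2).isCompact.image continuous_fst).isClosed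

/-- a line `l` through `p` which meets the maximal subspace `w` in `q` -/
structure Br (In : X₁ → X₃ → Prop) (Sb : X₂ → X₃ → Prop)
    (E : C(X₁, ℂ) →⋆ₐ[ℂ] (K →L[ℂ] K)) (F : C(X₃, ℂ) →⋆ₐ[ℂ] (K →L[ℂ] K))
    (G : C(X₂, ℂ) →⋆ₐ[ℂ] (K →L[ℂ] K)) (Q : C(X₃, ℂ) →⋆ₐ[ℂ] (K →L[ℂ] K)) : Prop where
  /-- `p ∈ l` -/
  cF : ∀ g u, Commute (G g) (F u)
  iF : ∀ g u, Nin Sb g u → G g * F u = 0
  /-- `q ∈ l` -/
  iQ : ∀ g u, Nin Sb g u → G g * Q u = 0
  /-- `q ∈ w` -/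
  iE : ∀ a u, Nin In a u → Q u * E a = 0

include hIn hSb in
theorem Br.perp {E : C(X₁, ℂ) →⋆ₐ[ℂ] (K →L[ℂ] K)} {F : C(X₃, ℂ) →⋆ₐ[ℂ] (K →L[ℂ] K)}
    {G : C(X₂, ℂ) →⋆ₐ[ℂ] (K →L[ℂ] K)} {Q : C(X₃, ℂ) →⋆ₐ[ℂ] (K →L[ℂ] K)} (b : Br In Sb E F G Q)
    (g : C(X₂, ℂ)) (a : C(X₁, ℂ)) (h : Nin (Pp In Sb) a g) : G g * E a = 0 :=
  inc_trans hSb hIn G Q E b.iQ b.iE g a fun A hA x hx M h1 h2 => h x hx A hA ⟨M, h2, h1⟩

include hIn hSb geo in
/-- **T3, first part** (board #9262 (B)): `F_p ⊥ E_w`: the value of the maximal subspace `w` lies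
in the value of the point `p`, for all `w`, `p`. -/
theorem t3_inc {E : C(X₁, ℂ) →⋆ₐ[ℂ] (K →L[ℂ] K)} {F : C(X₃, ℂ) →⋆ₐ[ℂ] (K →L[ℂ] K)}
    {G G' : C(X₂, ℂ) →⋆ₐ[ℂ] (K →L[ℂ] K)} {Q Q' : C(X₃, ℂ) →⋆ₐ[ℂ] (K →L[ℂ] K)}
    (b : Br In Sb E F G Q) (b' : Br In Sb E F G' Q')
    (agr : ∀ ξ, (∀ g, G g ξ = G' g ξ) → ξ = 0) (u : C(X₃, ℂ)) (a : C(X₁, ℂ)) (h : Nin In a u) :
    F u * E a = 0 := by
  have key := fun g => Vale.Agent.P092.H437.P2.agree (I := Sb) (O := Pp In Sb) (O' := In) hSb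
    (isClosed_Pp hIn hSb) (fun x L A A' h1 h2 h3 h4 h5 => geo x L A A' h1 h2 h3 h4 h5)
    (φ₁ := G) (φ₂ := G') (ψ := F) (β := E) (S := 1) b.cF b'.cF b.iF b'.iF
    (fun g a h => by rw [mul_one]; exact b.perp hIn hSb g a h)
    (fun g a h => by rw [mul_one]; exact b'.perp hIn hSb g a h) u a h g
  ext ξ
  refine agr _ fun g => ?_
  have h1 := congrArg (fun T : K →L[ℂ] K => T ξ) (key g)
  simp only [mul_one, sub_mul, mul_assoc] at h1
  exact sub_eq_zero.1 h1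

include hIn in
/-- **T3, second part**: maximal subspaces of the target: `F_p h * F_p' h' = 0` for supports
without a common point. -/
theorem t3_opp {E : C(X₁, ℂ) →⋆ₐ[ℂ] (K →L[ℂ] K)} {F F' : C(X₃, ℂ) →⋆ₐ[ℂ] (K →L[ℂ] K)}
    (h₁ : ∀ u a, Nin In a u → F u * E a = 0) (h₂ : ∀ u a, Nin In a u → F' u * E a = 0)
    (u u' : C(X₃, ℂ)) (h : ∀ L ∈ tsupport ⇑u, ∀ L' ∈ tsupport ⇑u', ∀ x, In x L → ¬ In x L') :
    F u * F' u' = 0 := by
  have hI' : IsClosed {q : X₃ × X₁ | In q.2 q.1} := hIn.preimage continuous_swap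
  refine inc_trans (I := fun L x => In x L) (J := fun L x => In x L) hI' hI' F E F'
    (fun u a hn => h₁ u a fun x hx L hL => hn L hL x hx) (fun u a hn => ?_) u u'
    fun L hL L' hL' x h1 h2 => h L hL L' hL' x h1 h2
  have h3 := congrArg star (h₂ (star u) (star a) ?_)
  · simpa [star_mul, map_star] using h3
  · intro x hx L hL
    rw [Vale.Agent.P092.H218.NC.tsupport_star] at hx hL
    exact hn L hL x hx

end flip

end Vale.Agent.P092.H604.T3
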